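import Vale.Agent.P243E24.Defs
import Vale.Agent.P243.H344.Final
import Vale.Agent.P243.LB.All

/-! Dictionary between planes `u^⊥` and orthonormal frames. -/

set_option linter.all false

open MeasureTheory Set
open scoped ENNReal RealInnerProductSpace

namespace Vale.Agent.P243E

open Vale.Agent.P243 (proj)
open Vale.Agent.P243.Bridge (flat flat_dot inner_proj exists_iso finrank_perp volume_image_equiv)
open Vale.Agent.P243.Plain (Frame CylinderCovering)
open Vale.Agent.P243.H344 (CoplanarAxes AtMostTwoAxes)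

/-- the frame `F` gives coordinates `e` on the plane `u^⊥` -/
def Ad (F : Frame) (u : E3) (e : perp u ≃ᵐ ℝ × ℝ) : Prop :=
  MeasurePreserving e volume volume ∧ ∀ x : E3, F.proj (flat x) = e (proj u x)

theorem ad_of_axis {u : E3} (hu : ‖u‖ = 1) : ∃ F e, Ad F u e := by
  obtain ⟨F, e, h1, h2, -⟩ := Vale.Agent.P243.Bridge.frame_of_axis hu
  exact ⟨F, e, h1, h2⟩

theorem ad_of_frame (F : Frame) : ∃ u : E3, ‖u‖ = 1 ∧ ∃ e, Ad F u e := by
  obtain ⟨e, f, hee, hff, hef⟩ := F
  let E : E3 := WithLp.toLp 2 e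
  let F' : E3 := WithLp.toLp 2 f
  have hee' := hee
  have hff' := hff
  have hef' := hef
  simp only [dotProduct, Fin.sum_univ_three] at hee' hff' hef'
  let u : E3 := WithLp.toLp 2 ![e 1 * f 2 - e 2 * f 1, e 2 * f 0 - e 0 * f 2,
    e 0 * f 1 - e 1 * f 0]
  have hin : ∀ a b : E3, ⟪a, b⟫ = a 0 * b 0 + a 1 * b 1 + a 2 * b 2 := by
    intro a b
    rw [← flat_dot]
    simp only [dotProduct, Fin.sum_univ_three]
  have hu0 : u 0 = e 1 * f 2 - e 2 * f 1 := rfl
  have hu1 : u 1 = e 2 * f 0 - e 0 * f 2 := rfl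
  have hu2 : u 2 = e 0 * f 1 - e 1 * f 0 := rfl
  have hE : ∀ i, E i = e i := fun _ => rfl
  have hF : ∀ i, F' i = f i := fun _ => rfl
  have huu : ‖u‖ = 1 := by
    have h1 : ‖u‖ ^ 2 = 1 := by
      rw [← real_inner_self_eq_norm_sq, hin, hu0, hu1, hu2]
      linear_combination (f 0 * f 0 + f 1 * f 1 + f 2 * f 2) * hee' + hff'
        - (e 0 * f 0 + e 1 * f 1 + e 2 * f 2) * hef'
    nlinarith only [h1, norm_nonneg u]
  have hEu : E ∈ perp u := by
    rw [Submodule.mem_orthogonal_singleton_iff_inner_right, hin, hu0, hu1, hu2, hE, hE, hE]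
    ring
  have hFu : F' ∈ perp u := by
    rw [Submodule.mem_orthogonal_singleton_iff_inner_right, hin, hu0, hu1, hu2, hF, hF, hF]
    ring
  let v : Fin 2 → perp u := ![⟨E, hEu⟩, ⟨F', hFu⟩]
  have hv : Orthonormal ℝ v := by
    rw [orthonormal_iff_ite]
    intro i j
    fin_cases i <;> fin_cases j
    · change ⟪E, E⟫ = 1
      rw [hin, hE, hE, hE]; exact hee'
    · change ⟪E, F'⟫ = 0
      rw [hin, hE, hE, hE, hF, hF, hF]; exact hef'
    · change ⟪F', E⟫ = 0
      rw [hin, hE, hE, hE, hF, hF, hF]; linarith only [hef']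
    · change ⟪F', F'⟫ = 1
      rw [hin, hF, hF, hF]; exact hff'
  have hcard : Fintype.card (Fin 2) = Module.finrank ℝ (perp u) := by
    rw [finrank_perp huu]; rfl
  have hb := coe_basisOfOrthonormalOfCardEqFinrank hv hcard
  let o : OrthonormalBasis (Fin 2) ℝ (perp u) :=
    (basisOfOrthonormalOfCardEqFinrank hv hcard).toOrthonormalBasis (by rw [hb]; exact hv)
  have ho : ∀ i, o i = v i := by
    intro i
    simp only [Module.Basis.coe_toOrthonormalBasis, o]
    rw [hb]
  obtain ⟨g, hg, hgy⟩ := exists_iso o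
  refine ⟨u, huu, g, hg, fun x => ?_⟩
  rw [hgy, inner_proj, inner_proj, ho, ho]
  change (e ⬝ᵥ flat x, f ⬝ᵥ flat x) = (⟪E, x⟫, ⟪F', x⟫)
  rw [← flat_dot, ← flat_dot]

theorem proj_coe (u : E3) (b : perp u) : proj u (b : E3) = b :=
  Submodule.orthogonalProjectionOnto_mem_subspace_eq_self b

theorem proj_eq_zero {u x : E3} : proj u x = 0 ↔ x ∈ ℝ ∙ u := by
  constructor
  · intro h
    have := Vale.Agent.P243.sub_proj_mem u x
    rwa [h, Submodule.coe_zero, sub_zero] at this
  · intro h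
    refine Submodule.orthogonalProjectionOnto_eq_zero_iff.2 ?_
    rwa [Submodule.orthogonal_orthogonal]

theorem mem_cylinder {u : E3} {B : Set (perp u)} {x : E3} : x ∈ cylinder u B ↔ proj u x ∈ B := by
  constructor
  · rintro ⟨b, hb, t, rfl⟩
    have h0 : proj u (t • u) = 0 :=
      proj_eq_zero.2 (Submodule.smul_mem _ _ (Submodule.mem_span_singleton_self u))
    have h1 : proj u ((b : E3) + t • u) = proj u (b : E3) + proj u (t • u) := map_add _ _ _
    rw [h1, h0, add_zero, proj_coe]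
    exact hb
  · intro h
    obtain ⟨t, ht⟩ := Submodule.mem_span_singleton.1 (Vale.Agent.P243.sub_proj_mem u x)
    exact ⟨_, h, t, by rw [ht]; abel⟩

variable {F : Frame} {u : E3} {e : perp u ≃ᵐ ℝ × ℝ}

theorem Ad.zero_iff (h : Ad F u e) (x : E3) : F.proj (flat x) = 0 ↔ x ∈ ℝ ∙ u := by
  have h0 : e 0 = 0 := by
    have h1 := h.2 0
    have h2 : proj u 0 = 0 := map_zero _
    rw [h2] at h1
    rw [← h1]
    simp [Frame.proj]
  rw [h.2, ← proj_eq_zero, ← h0]
  exact e.injective.eq_iff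

theorem Ad.image (h : Ad F u e) (K : Set E3) : F.proj '' (flat '' K) = e '' projSet K u := by
  unfold projSet
  rw [← Set.image_comp, ← Set.image_comp]
  exact Set.image_congr fun x _ => h.2 x

theorem Ad.shadow (h : Ad F u e) (K : Set E3) : F.shadow (flat '' K) = shadow K u := by
  unfold Frame.shadow
  rw [h.image, volume_image_equiv h.1]
  rfl

theorem Ad.nice (h : Ad F u e) {B : Set (ℝ × ℝ)} (hc : IsCompact B) (hB : Convex ℝ B) :
    IsCompact (e ⁻¹' B) ∧ Convex ℝ (e ⁻¹' B) := by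
  let φ : E3 →L[ℝ] ℝ × ℝ :=
    (Vale.Agent.P243.LB.G.projL F).comp (EuclideanSpace.equiv (Fin 3) ℝ).toContinuousLinearMap
  have hφ : ∀ x, φ x = F.proj (flat x) := fun _ => rfl
  have hs : Function.Surjective φ := fun z => by
    obtain ⟨y, rfl⟩ := Vale.Agent.P243.LB.G.proj_surjective F z
    exact ⟨WithLp.toLp 2 y, rfl⟩
  obtain ⟨L, hL⟩ := Vale.Agent.P243.exists_equiv hs (u := u) fun x => by rw [hφ, h.zero_iff]
  have he : (e : perp u → ℝ × ℝ) = L := by
    funext y
    rw [hL, hφ, h.2, proj_coe]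
  rw [he]
  exact ⟨L.toHomeomorph.isCompact_preimage.2 hc, hB.linear_preimage L.toLinearEquiv.toLinearMap⟩

theorem Amin_eq (K : Set E3) :
    shadow K '' {u | ‖u‖ = 1} = range fun F : Frame => F.shadow (flat '' K) := by
  ext a
  constructor
  · rintro ⟨u, hu, rfl⟩
    obtain ⟨F, e, h⟩ := ad_of_axis hu
    exact ⟨F, h.shadow K⟩
  · rintro ⟨F, rfl⟩
    obtain ⟨u, hu, e, h⟩ := ad_of_frame F
    exact ⟨u, hu, (h.shadow K).symm⟩

theorem Amin_flat (K : Set E3) : Amin K = Vale.Agent.P243.Plain.Amin (flat '' K) := by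
  unfold Amin
  rw [Amin_eq]
  rfl

theorem toPlain {K : Set E3} (C : Covering K) : ∃ C' : CylinderCovering (flat '' K),
    C'.totalArea = C.total ∧ C'.relArea = C.rel ∧ (C.Coplanar → CoplanarAxes C') ∧
      (C.TwoAxes → AtMostTwoAxes C') := by
  classical
  choose F e h using fun i => ad_of_axis (C.unit i)
  refine ⟨{ m := C.m, frame := F, base := fun i => e i '' C.base i,
            measurable_base := ?_, finite_area := ?_, covers := ?_ }, ?_, ?_, ?_, ?_⟩
  · intro i
    rw [MeasurableEquiv.image_eq_preimage_symm]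
    exact (C.measurable_base i).preimage (h i).1.symm.quasiMeasurePreserving
  · intro i
    rw [volume_image_equiv (h i).1]
    exact C.finite_area i
  · rintro _ ⟨x, hx, rfl⟩
    obtain ⟨i, hi⟩ := Set.mem_iUnion.mp (C.covers hx)
    refine Set.mem_iUnion.mpr ⟨i, ?_⟩
    change (F i).proj (flat x) ∈ e i '' C.base i
    rw [(h i).2]
    exact ⟨_, mem_cylinder.1 hi, rfl⟩
  · refine Finset.sum_congr rfl fun i _ => ?_
    change (volume (e i '' C.base i)).toReal = _
    rw [volume_image_equiv (h i).1]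
    rfl
  · refine Finset.sum_congr rfl fun i _ => ?_
    change (volume (e i '' C.base i)).toReal / (F i).shadow (flat '' K) = _
    rw [volume_image_equiv (h i).1, (h i).shadow]
    rfl
  · rintro ⟨v, hv, hvu⟩
    refine ⟨flat v, fun h0 => hv (by ext i; exact congrFun h0 i), fun i x hx => ?_⟩
    obtain ⟨t, ht⟩ := Submodule.mem_span_singleton.1 (((h i).zero_iff (WithLp.toLp 2 x)).1 hx)
    have h1 : flat v ⬝ᵥ x = ⟪v, WithLp.toLp 2 x⟫ := flat_dot v (WithLp.toLp 2 x)
    rw [h1, ← ht, inner_smul_right, hvu, mul_zero]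
  · rintro ⟨a, b, hab⟩
    have key : ∀ a : E3, ∃ a' : Fin 3 → ℝ, a' ≠ 0 ∧ ∀ i, C.u i ∈ ℝ ∙ a → (F i).proj a' = 0 := by
      intro a
      by_cases ha : a = 0
      · refine ⟨1, one_ne_zero, fun i hi => ?_⟩
        rw [ha, Submodule.span_zero_singleton, Submodule.mem_bot] at hi
        have := C.unit i
        rw [hi, norm_zero] at this
        exact absurd this zero_ne_one
      · refine ⟨flat a, fun h0 => ha (by ext i; exact congrFun h0 i), fun i hi => ?_⟩
        obtain ⟨t, ht⟩ := Submodule.mem_span_singleton.1 hi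
        have ht0 : t ≠ 0 := by
          rintro rfl
          have := C.unit i
          rw [← ht, zero_smul, norm_zero] at this
          exact absurd this zero_ne_one
        refine ((h i).zero_iff a).2 (Submodule.mem_span_singleton.2 ⟨t⁻¹, ?_⟩)
        rw [← ht, smul_smul, inv_mul_cancel₀ ht0, one_smul]
    obtain ⟨a', ha', h1⟩ := key a
    obtain ⟨b', hb', h2⟩ := key b
    exact ⟨a', b', ha', hb', fun i => (hab i).imp (h1 i) (h2 i)⟩

theorem ofPlain {K : Set E3} (C' : CylinderCovering (flat '' K)) : ∃ C : Covering K,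
    C.total = C'.totalArea ∧ C.rel = C'.relArea ∧
      ((∀ i, IsCompact (C'.base i) ∧ Convex ℝ (C'.base i)) → C.Nice) ∧
      (CoplanarAxes C' → C.Coplanar) ∧ (AtMostTwoAxes C' → C.TwoAxes) := by
  choose u hu e h using fun i => ad_of_frame (C'.frame i)
  have hvol : ∀ i, leb (u i) (e i ⁻¹' C'.base i) = volume (C'.base i) := fun i =>
    (h i).1.measure_preimage_equiv _
  refine ⟨{ m := C'.m, u := u, base := fun i => e i ⁻¹' C'.base i, unit := hu,
            measurable_base := ?_, finite_area := ?_, covers := ?_ }, ?_, ?_, ?_, ?_, ?_⟩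
  · intro i
    exact (C'.measurable_base i).preimage (h i).1.quasiMeasurePreserving
  · intro i
    rw [hvol]
    exact C'.finite_area i
  · intro x hx
    obtain ⟨i, hi⟩ := Set.mem_iUnion.mp (C'.covers ⟨x, hx, rfl⟩)
    refine Set.mem_iUnion.mpr ⟨i, mem_cylinder.2 ?_⟩
    change e i (proj (u i) x) ∈ C'.base i
    rw [← (h i).2]
    exact hi
  · refine Finset.sum_congr rfl fun i _ => ?_
    change (leb (u i) (e i ⁻¹' C'.base i)).toReal = _
    rw [hvol]
  · refine Finset.sum_congr rfl fun i _ => ?_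
    change (leb (u i) (e i ⁻¹' C'.base i)).toReal / shadow K (u i) = _
    rw [hvol, ← (h i).shadow]
  · intro hn i
    exact (h i).nice (hn i).1 (hn i).2
  · rintro ⟨v, hv, hvu⟩
    refine ⟨WithLp.toLp 2 v, fun h0 => hv (congrArg WithLp.ofLp h0), fun i => ?_⟩
    have h1 := hvu i (flat (u i)) (((h i).zero_iff _).2 (Submodule.mem_span_singleton_self _))
    exact (flat_dot (WithLp.toLp 2 v) (u i)).symm.trans h1
  · rintro ⟨a, b, ha, hb, hab⟩
    have key : ∀ a : Fin 3 → ℝ, a ≠ 0 → ∀ i, (C'.frame i).proj a = 0 →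
        u i ∈ ℝ ∙ (WithLp.toLp 2 a : E3) := by
      intro a ha i hi
      obtain ⟨t, ht⟩ := Submodule.mem_span_singleton.1 (((h i).zero_iff (WithLp.toLp 2 a)).1 hi)
      have ht0 : t ≠ 0 := by
        rintro rfl
        rw [zero_smul] at ht
        exact ha (congrArg WithLp.ofLp ht).symm
      refine Submodule.mem_span_singleton.2 ⟨t⁻¹, ?_⟩
      rw [← ht, smul_smul, inv_mul_cancel₀ ht0, one_smul]
    exact ⟨_, _, fun i => (hab i).imp (key a ha i) (key b hb i)⟩

end Vale.Agent.P243E
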