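import Mathlib.Analysis.InnerProductSpace.PiL2
import Mathlib.Analysis.InnerProductSpace.Projection.Basic
import Mathlib.MeasureTheory.Measure.Haar.InnerProductSpace

/-!
Cylinder coverings of convex bodies in a Euclidean space `V`, as in the problem text; the space
used in the theorem is `V = ℝ³`.
-/

open MeasureTheory
open scoped ENNReal

namespace Vale.Agent.P243E

variable {V : Type} [NormedAddCommGroup V] [InnerProductSpace ℝ V]

/-- The plane `u^⊥`. -/
noncomputable abbrev perp (u : V) : Submodule ℝ V := (ℝ ∙ u)ᗮ

/-- The cylinder `B + ℝ u`. -/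
def cylinder (u : V) (B : Set (perp u)) : Set V := {x | ∃ b ∈ B, ∃ t : ℝ, x = (b : V) + t • u}

/-- A convex body: a compact convex set with nonempty interior. -/
def IsConvexBody (K : Set V) : Prop := IsCompact K ∧ Convex ℝ K ∧ (interior K).Nonempty

variable [FiniteDimensional ℝ V]

/-- The orthogonal projection of `K` onto `u^⊥`. -/
noncomputable def projSet (K : Set V) (u : V) : Set (perp u) :=
  (perp u).orthogonalProjectionOnto '' K

variable [MeasurableSpace V] [BorelSpace V]

/-- Planar Lebesgue measure of the Euclidean plane `u^⊥`. -/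
noncomputable def leb (u : V) : Measure (perp u) := volume

/-- The planar area `|B|` of a subset of `u^⊥`. -/
noncomputable def area (u : V) (B : Set (perp u)) : ℝ := (leb u B).toReal

/-- The area of the orthogonal projection of `K` onto `u^⊥`. -/
noncomputable def shadow (K : Set V) (u : V) : ℝ := area u (projSet K u)

/-- The smallest area of an orthogonal projection of `K` onto a plane. -/
noncomputable def Amin (K : Set V) : ℝ := sInf (shadow K '' {u | ‖u‖ = 1})

/-- A finite covering of `K` by cylinders `B_i + ℝ u_i`, with unit vectors `u_i` and Lebesgue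
measurable bases `B_i ⊆ u_i^⊥` of finite area. -/
structure Covering (K : Set V) where
  m : ℕ
  u : Fin m → V
  base : ∀ i, Set (perp (u i))
  unit : ∀ i, ‖u i‖ = 1
  measurable_base : ∀ i, NullMeasurableSet (base i) (leb (u i))
  finite_area : ∀ i, leb (u i) (base i) ≠ ∞
  covers : K ⊆ ⋃ i, cylinder (u i) (base i)

/-- The total base area of a covering. -/
noncomputable def Covering.total {K : Set V} (C : Covering K) : ℝ :=
  ∑ i, area (C.u i) (C.base i)

/-- The directionwise relative area of a covering. -/
noncomputable def Covering.rel {K : Set V} (C : Covering K) : ℝ :=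
  ∑ i, area (C.u i) (C.base i) / shadow K (C.u i)

/-- All bases are compact and convex. -/
def Covering.Nice {K : Set V} (C : Covering K) : Prop :=
  ∀ i, IsCompact (C.base i) ∧ Convex ℝ (C.base i)

/-- All axes are parallel to one plane. -/
def Covering.Coplanar {K : Set V} (C : Covering K) : Prop :=
  ∃ v : V, v ≠ 0 ∧ ∀ i, inner ℝ v (C.u i) = 0

/-- At most two axis directions occur. -/
def Covering.TwoAxes {K : Set V} (C : Covering K) : Prop :=
  ∃ a b : V, ∀ i, C.u i ∈ ℝ ∙ a ∨ C.u i ∈ ℝ ∙ b

variable (V)

/-- The statement of Q1, Bang's half-area inequality. -/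
def HalfArea : Prop :=
  ∀ K : Set V, IsConvexBody K → ∀ C : Covering K, 1 / 2 * Amin K ≤ C.total

/-- The stronger form of Q1. -/
def HalfRel : Prop := ∀ K : Set V, IsConvexBody K → ∀ C : Covering K, 1 / 2 ≤ C.rel

/-- The constant `c₃`. -/
noncomputable def c3 : ℝ :=
  sInf {r : ℝ | ∃ K : Set V, IsConvexBody K ∧ ∃ C : Covering K, r = C.total / Amin K}

/-- The constant `r₃`. -/
noncomputable def r3 : ℝ :=
  sInf {r : ℝ | ∃ K : Set V, IsConvexBody K ∧ ∃ C : Covering K, r = C.rel}

/-- For every convex body the minimum `Amin` is attained and positive, coverings exist, and all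
projections have finite area. -/
def WellDefined : Prop :=
  ∀ K : Set V, IsConvexBody K → IsLeast (shadow K '' {u | ‖u‖ = 1}) (Amin K) ∧ 0 < Amin K ∧
    Nonempty (Covering K) ∧ ∀ u, leb u (projSet K u) ≠ ∞

/-- One `δ > 0` improves the lower bound `1 / 3` for all bodies and coverings. -/
def LowerBound : Prop :=
  ∃ δ : ℝ, 0 < δ ∧ ∀ K : Set V, IsConvexBody K → ∀ C : Covering K,
    1 / 3 + δ ≤ C.rel ∧ (1 / 3 + δ) * Amin K ≤ C.total

/-- The inequalities hold for coplanar axes, respectively for at most two axis directions. -/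
def SpecialAxes : Prop :=
  ∀ K : Set V, IsConvexBody K → ∀ C : Covering K,
    (C.Coplanar → 1 / 2 * Amin K ≤ C.total) ∧ (C.TwoAxes → 1 / 2 ≤ C.rel)

variable {V}

/-- `K` is a convex body with a covering by cylinders over compact convex bases whose total area
is at most `t * Amin K` and whose relative area is at most `t`. -/
def CoveredWithin (K : Set V) (t : ℝ) : Prop :=
  IsConvexBody K ∧ ∃ C : Covering K, C.Nice ∧ C.total ≤ t * Amin K ∧ C.rel ≤ t

/-- `K` has a covering with compact convex bases, coplanar axes and at most two axis directions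
for which both inequalities of Q1 are equalities. -/
def Extremal (K : Set V) : Prop :=
  ∃ C : Covering K, C.Nice ∧ C.Coplanar ∧ C.TwoAxes ∧ C.total = 1 / 2 * Amin K ∧ C.rel = 1 / 2

/-- Euclidean three-space. -/
abbrev E3 : Type := EuclideanSpace ℝ (Fin 3)

/-- The regular tetrahedron with vertices `(1,1,1)`, `(1,-1,-1)`, `(-1,1,-1)`, `(-1,-1,1)`. -/
noncomputable def tetra : Set E3 :=
  convexHull ℝ (WithLp.toLp 2 '' {![1, 1, 1], ![1, -1, -1], ![-1, 1, -1], ![-1, -1, 1]})

end Vale.Agent.P243E
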