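import Vale.Agent.P243.LB.All

/-! The smallest shadow of a convex body is attained. -/

set_option linter.all false

open MeasureTheory Set Metric Filter Topology
open scoped ENNReal

namespace Vale.Agent.P243E

open Vale.Agent.P243.Plain Vale.Agent.P243.LB.G

theorem abs_dot_le {a x : Fin 3 → ℝ} {η R : ℝ} (ha : ‖a‖ ≤ η) (hx : ‖x‖ ≤ R) :
    |a ⬝ᵥ x| ≤ 3 * (η * R) := by
  have h : ∀ i, |a i * x i| ≤ η * R := fun i => by
    rw [abs_mul]
    exact mul_le_mul ((norm_le_pi_norm a i).trans ha) ((norm_le_pi_norm x i).trans hx)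
      (abs_nonneg _) ((norm_nonneg _).trans ha)
  have h0 := abs_le.1 (h 0)
  have h1 := abs_le.1 (h 1)
  have h2 := abs_le.1 (h 2)
  simp only [dotProduct, Fin.sum_univ_three]
  rw [abs_le]
  constructor <;> linarith only [h0.1, h0.2, h1.1, h1.2, h2.1, h2.2]

theorem norm_comb_le (F : Frame) (α β : ℝ) : ‖α • F.e + β • F.f‖ ≤ |α| + |β| := by
  rw [pi_norm_le_iff_of_nonneg (by positivity)]
  intro i
  have he := sq_le_one_of F.norm_e i
  have hf := sq_le_one_of F.norm_f i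
  rw [Pi.add_apply, Pi.smul_apply, Pi.smul_apply, smul_eq_mul, smul_eq_mul]
  calc ‖α * F.e i + β * F.f i‖ ≤ |α| * |F.e i| + |β| * |F.f i| := by
        refine (norm_add_le _ _).trans (le_of_eq ?_)
        rw [Real.norm_eq_abs, Real.norm_eq_abs, abs_mul, abs_mul]
    _ ≤ |α| * 1 + |β| * 1 := by gcongr
    _ = |α| + |β| := by ring

theorem shadow_le_near {K : Set (Fin 3 → ℝ)} (hK : IsCompact K) (hc : Convex ℝ K)
    {x₀ : Fin 3 → ℝ} {r R s η : ℝ} (hb : ball x₀ r ⊆ K) (hR : ∀ x ∈ K, ‖x‖ ≤ R) (hs : 0 < s)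
    (hη : 6 * (η * R) < s * r) (F G : Frame) (he : ‖F.e - G.e‖ ≤ η) (hf : ‖F.f - G.f‖ ≤ η) :
    F.shadow K ≤ (1 + s) ^ 2 * G.shadow K := by
  have hsub : F.proj '' K ⊆ AffineMap.homothety (G.proj x₀) (1 + s) '' (G.proj '' K) := by
    rintro _ ⟨x, hx, rfl⟩
    have h1 := abs_dot_le he (hR x hx)
    have h2 := abs_dot_le hf (hR x hx)
    set w₁ := (F.e - G.e) ⬝ᵥ x with hw₁
    set w₂ := (F.f - G.f) ⬝ᵥ x with hw₂
    have hz : x₀ + ((w₁ / s) • G.e + (w₂ / s) • G.f) ∈ K := by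
      refine hb ?_
      rw [mem_ball, dist_eq_norm, add_sub_cancel_left]
      refine (norm_comb_le G _ _).trans_lt ?_
      rw [abs_div, abs_div, abs_of_pos hs, ← add_div, div_lt_iff₀ hs]
      linarith only [h1, h2, hη]
    have h1s : 0 < 1 + s := by linarith only [hs]
    have hx' := hc hx hz (a := 1 / (1 + s)) (b := s / (1 + s)) (by positivity) (by positivity)
      (by field_simp)
    refine ⟨_, ⟨_, hx', rfl⟩, ?_⟩
    have hl : G.proj ((1 / (1 + s)) • x + (s / (1 + s)) • (x₀ + ((w₁ / s) • G.e + (w₂ / s) • G.f)))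
        = (1 / (1 + s)) • G.proj x + (s / (1 + s)) • (G.proj x₀ + (w₁ / s, w₂ / s)) := by
      rw [← proj_comb, ← projL_apply, map_add, map_smul, map_smul, projL_apply, projL_apply]
    rw [hl, AffineMap.homothety_apply]
    have e1 : F.e ⬝ᵥ x = G.e ⬝ᵥ x + w₁ := by rw [hw₁, sub_dotProduct]; ring
    have e2 : F.f ⬝ᵥ x = G.f ⬝ᵥ x + w₂ := by rw [hw₂, sub_dotProduct]; ring
    unfold Frame.proj
    rw [e1, e2]
    ext
    · simp only [vsub_eq_sub, vadd_eq_add, Prod.fst_add, Prod.fst_sub, Prod.smul_fst, smul_eq_mul]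
      field_simp
      ring
    · simp only [vsub_eq_sub, vadd_eq_add, Prod.snd_add, Prod.snd_sub, Prod.smul_snd, smul_eq_mul]
      field_simp
      ring
  have h1 := measure_mono (μ := (volume : Measure (ℝ × ℝ))) hsub
  rw [Measure.addHaar_image_homothety] at h1
  have hfin := volume_shadow_ne_top hK G
  have h2 := ENNReal.toReal_mono (ENNReal.mul_ne_top ENNReal.ofReal_ne_top hfin) h1
  rw [ENNReal.toReal_mul, ENNReal.toReal_ofReal (abs_nonneg _), Module.finrank_prod,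
    Module.finrank_self, abs_of_nonneg (by positivity)] at h2
  exact h2

/-- the pairs of vectors that form a frame -/
def frames : Set ((Fin 3 → ℝ) × (Fin 3 → ℝ)) :=
  {p | p.1 ⬝ᵥ p.1 = 1 ∧ p.2 ⬝ᵥ p.2 = 1 ∧ p.1 ⬝ᵥ p.2 = 0}

theorem isCompact_frames : IsCompact frames := by
  refine Metric.isCompact_of_isClosed_isBounded ?_ ?_
  · refine (isClosed_eq ?_ continuous_const).inter
      ((isClosed_eq ?_ continuous_const).inter (isClosed_eq ?_ continuous_const)) <;> fun_prop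
  · refine (Metric.isBounded_closedBall (x := 0) (r := 1)).subset ?_
    rintro ⟨e, f⟩ ⟨he, hf, -⟩
    rw [mem_closedBall, dist_zero_right, Prod.norm_def]
    refine max_le ?_ ?_
    · exact (pi_norm_le_iff_of_nonneg zero_le_one).2 fun i => sq_le_one_of he i
    · exact (pi_norm_le_iff_of_nonneg zero_le_one).2 fun i => sq_le_one_of hf i

theorem exists_min_shadow {K : Set (Fin 3 → ℝ)} (h : IsConvexBody K) :
    ∃ F : Frame, ∀ G : Frame, F.shadow K ≤ G.shadow K := by
  obtain ⟨hK, hc, x₀, hx⟩ := h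
  obtain ⟨r, hr, hb⟩ := Metric.isOpen_iff.1 isOpen_interior x₀ hx
  replace hb := hb.trans interior_subset
  obtain ⟨R, hR0, hR⟩ := hK.isBounded.exists_pos_norm_le
  let g : (Fin 3 → ℝ) × (Fin 3 → ℝ) → ℝ := fun p =>
    (volume ((fun x => (p.1 ⬝ᵥ x, p.2 ⬝ᵥ x)) '' K)).toReal
  have hg : LowerSemicontinuousOn g frames := by
    intro p hp y hy
    have hcont : ContinuousAt (fun s : ℝ => (1 + s) ^ 2 * y) 0 := by fun_prop
    have h0 : (fun s : ℝ => (1 + s) ^ 2 * y) 0 < g p := by simpa using hy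
    have hev := (hcont.eventually (gt_mem_nhds h0)).filter_mono (nhdsWithin_le_nhds (s := Ioi 0))
    obtain ⟨s, hs1, hs⟩ := (hev.and self_mem_nhdsWithin).exists
    replace hs : 0 < s := hs
    have hη : 0 < s * r / (7 * R) := by positivity
    filter_upwards [self_mem_nhdsWithin, nhdsWithin_le_nhds (closedBall_mem_nhds p hη)]
      with q hq hpq
    rw [mem_closedBall, dist_comm, dist_eq_norm, Prod.norm_def, max_le_iff] at hpq
    have key := shadow_le_near hK hc hb hR hs (η := s * r / (7 * R))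
      (by
        have : s * r / (7 * R) * R = s * r / 7 := by field_simp
        rw [this]
        have : 0 < s * r := by positivity
        linarith)
      ⟨p.1, p.2, hp.1, hp.2.1, hp.2.2⟩ ⟨q.1, q.2, hq.1, hq.2.1, hq.2.2⟩ hpq.1 hpq.2
    have h2 : (1 + s) ^ 2 * y < (1 + s) ^ 2 * g q := lt_of_lt_of_le hs1 key
    exact lt_of_mul_lt_mul_left h2 (by positivity)
  have hne : frames.Nonempty :=
    ⟨(stdFrame.e, stdFrame.f), stdFrame.norm_e, stdFrame.norm_f, stdFrame.orthogonal⟩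
  obtain ⟨p, hp, hmin⟩ := LowerSemicontinuousOn.exists_isMinOn hne isCompact_frames hg
  exact ⟨⟨p.1, p.2, hp.1, hp.2.1, hp.2.2⟩, fun G =>
    hmin (show (G.e, G.f) ∈ frames from ⟨G.norm_e, G.norm_f, G.orthogonal⟩)⟩

end Vale.Agent.P243E
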