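import Vale.Agent.P243E24.Br
import Vale.Agent.P243E24.Min

/-! Transfer of the results on frames to the Euclidean formulation. -/

set_option linter.all false

open MeasureTheory Set
open scoped ENNReal

namespace Vale.Agent.P243E

open Vale.Agent.P243.Bridge (flat)
open Vale.Agent.P243.Plain (Frame CylinderCovering)
open Vale.Agent.P243.H344 (regularTetrahedron)

theorem flat_toLp (K : Set (Fin 3 → ℝ)) : flat '' (WithLp.toLp 2 '' K) = K := by
  rw [← Set.image_comp]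
  exact Set.image_id K

theorem body_flat {K : Set E3} (h : IsConvexBody K) :
    Vale.Agent.P243.Plain.IsConvexBody (flat '' K) :=
  Vale.Agent.P243.Bridge.isConvexBody_flat h

theorem body_toLp {K : Set (Fin 3 → ℝ)} (h : Vale.Agent.P243.Plain.IsConvexBody K) :
    IsConvexBody (WithLp.toLp 2 '' K : Set E3) := by
  obtain ⟨h1, h2, h3⟩ := h
  refine ⟨?_, ?_, ?_⟩
  · exact h1.image (PiLp.continuous_toLp 2 _)
  · have := h2.linear_image (WithLp.linearEquiv 2 ℝ (Fin 3 → ℝ)).symm.toLinearMap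
    exact this
  · have h4 : IsOpenMap (WithLp.toLp 2 : (Fin 3 → ℝ) → E3) :=
      (PiLp.homeomorph 2 (fun _ : Fin 3 => ℝ)).symm.isOpenMap
    exact (h3.image _).mono (h4.image_interior_subset K)

theorem tetra_eq : tetra = WithLp.toLp 2 '' regularTetrahedron := by
  unfold tetra regularTetrahedron
  exact ((WithLp.linearEquiv 2 ℝ (Fin 3 → ℝ)).symm.toLinearMap.image_convexHull _).symm

theorem flat_tetra : flat '' tetra = regularTetrahedron := by
  rw [tetra_eq, flat_toLp]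

theorem body_tetra : IsConvexBody tetra := by
  rw [tetra_eq]
  exact body_toLp Vale.Agent.P243.H344.isConvexBody_regularTetrahedron

theorem c3_eq : c3 E3 = Vale.Agent.P243.Plain.c3 := by
  unfold c3 Vale.Agent.P243.Plain.c3
  congr 1
  ext r
  constructor
  · rintro ⟨K, hK, C, rfl⟩
    obtain ⟨C', h1, -⟩ := toPlain C
    exact ⟨_, body_flat hK, C', by rw [h1, Amin_flat]⟩
  · rintro ⟨K', hK, C', rfl⟩
    obtain ⟨K, hK1, rfl⟩ : ∃ K : Set E3, IsConvexBody K ∧ flat '' K = K' :=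
      ⟨_, body_toLp hK, flat_toLp K'⟩
    obtain ⟨C, h1, -⟩ := ofPlain C'
    exact ⟨K, hK1, C, by rw [h1, Amin_flat]⟩

theorem r3_eq : r3 E3 = Vale.Agent.P243.Plain.r3 := by
  unfold r3 Vale.Agent.P243.Plain.r3
  congr 1
  ext r
  constructor
  · rintro ⟨K, hK, C, rfl⟩
    obtain ⟨C', -, h1, -⟩ := toPlain C
    exact ⟨_, body_flat hK, C', h1.symm⟩
  · rintro ⟨K', hK, C', rfl⟩
    obtain ⟨K, hK1, rfl⟩ : ∃ K : Set E3, IsConvexBody K ∧ flat '' K = K' :=
      ⟨_, body_toLp hK, flat_toLp K'⟩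
    obtain ⟨C, -, h1, -⟩ := ofPlain C'
    exact ⟨K, hK1, C, h1.symm⟩

theorem leb_proj_ne_top {K : Set E3} (hK : IsCompact K) (u : E3) : leb u (projSet K u) ≠ ∞ :=
  Vale.Agent.P243.volume_shadow_ne_top hK u

theorem nonempty_covering {K : Set E3} (hK : IsCompact K) : Nonempty (Covering K) := by
  have hc : ∀ u : E3, IsCompact (projSet K u) := fun u =>
    hK.image (perp u).orthogonalProjectionOnto.continuous
  refine ⟨{ m := 1, u := fun _ => EuclideanSpace.single 0 1, base := fun _ => projSet K _,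
            unit := fun _ => by simp, measurable_base := fun _ => ?_,
            finite_area := fun _ => leb_proj_ne_top hK _, covers := fun x hx => ?_ }⟩
  · exact (hc _).measurableSet.nullMeasurableSet
  · exact Set.mem_iUnion.2 ⟨0, mem_cylinder.2 ⟨x, hx, rfl⟩⟩

theorem wellDefined : WellDefined E3 := by
  intro K hK
  refine ⟨?_, ?_, nonempty_covering hK.1, leb_proj_ne_top hK.1⟩
  · obtain ⟨F, hF⟩ := exists_min_shadow (body_flat hK)
    have h : IsLeast (shadow K '' {u | ‖u‖ = 1}) (F.shadow (flat '' K)) := by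
      rw [Amin_eq]
      exact ⟨⟨F, rfl⟩, by rintro _ ⟨G, rfl⟩; exact hF G⟩
    unfold Amin
    rwa [h.csInf_eq]
  · rw [Amin_flat]
    exact Vale.Agent.P243.LB.G.Amin_pos (body_flat hK)

theorem coveredWithin : CoveredWithin tetra (1 / 2 - 1 / 5000) := by
  refine ⟨body_tetra, ?_⟩
  have h := Vale.Agent.P243.H344.exists_covering_regularTetrahedron
  rw [← flat_tetra] at h
  obtain ⟨C', hn, h1, h2⟩ := h
  obtain ⟨C, e1, e2, e3, -⟩ := ofPlain C'
  exact ⟨C, e3 hn, by rwa [e1, Amin_flat], by rwa [e2]⟩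

theorem extremal : Extremal tetra := by
  have h := Vale.Agent.P243.H344.exists_extremal
  rw [← flat_tetra] at h
  obtain ⟨C', hn, h1, h2, h3, h4⟩ := h
  obtain ⟨C, e1, e2, e3, e4, e5⟩ := ofPlain C'
  exact ⟨C, e3 hn, e4 h1, e5 h2, by rwa [e1, Amin_flat], by rwa [e2]⟩

theorem not_halfArea : ¬ HalfArea E3 := by
  intro h
  obtain ⟨hK, C, -, h1, -⟩ := coveredWithin
  have h2 := h _ hK C
  have h3 := (wellDefined _ hK).2.1
  linarith

theorem not_halfRel : ¬ HalfRel E3 := by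
  intro h
  obtain ⟨hK, C, -, -, h1⟩ := coveredWithin
  have h2 := h _ hK C
  linarith

theorem lowerBound : LowerBound E3 := by
  obtain ⟨δ, hδ, h, -⟩ := Vale.Agent.P243.LB.lower
  refine ⟨δ, hδ, fun K hK C => ?_⟩
  obtain ⟨C', e1, e2, -⟩ := toPlain C
  rw [← e1, ← e2, Amin_flat]
  exact h _ (body_flat hK) C'

theorem specialAxes : SpecialAxes E3 := by
  intro K hK C
  obtain ⟨C', e1, e2, e3, e4⟩ := toPlain C
  rw [← e1, ← e2, Amin_flat]
  exact ⟨fun h => Vale.Agent.P243.H344.half_area (body_flat hK) C' (e3 h),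
    fun h => Vale.Agent.P243.H344.rel_half (body_flat hK) C' (e4 h)⟩

theorem third_lt_r3 : 1 / 3 < r3 E3 := by
  obtain ⟨δ, hδ, -, h, -⟩ := Vale.Agent.P243.LB.lower
  rw [r3_eq]
  linarith

theorem r3_le : r3 E3 ≤ 5 / 12 := by
  rw [r3_eq]
  exact Vale.Agent.P243.Bridge.r3_le Vale.Agent.P243.isConvexBody_K0
    Vale.Agent.P243.exists_covering_K0

theorem r3_le_c3 : r3 E3 ≤ c3 E3 := by
  obtain ⟨δ, hδ, h⟩ := lowerBound
  obtain ⟨hT, C₀, -⟩ := coveredWithin
  refine le_csInf ⟨_, _, hT, C₀, rfl⟩ ?_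
  rintro _ ⟨K, hK, C, rfl⟩
  refine le_trans (csInf_le ⟨1 / 3 + δ, ?_⟩ ⟨K, hK, C, rfl⟩) ?_
  · rintro _ ⟨K', hK', C', rfl⟩
    exact (h K' hK' C').1
  · obtain ⟨C', e1, e2, -⟩ := toPlain C
    rw [← e1, ← e2, Amin_flat]
    exact Vale.Agent.P243.LB.G.relArea_le (body_flat hK) C'

theorem c3_le : c3 E3 ≤ 1 / 2 - 1 / 5000 := by
  rw [c3_eq]
  exact Vale.Agent.P243.H344.c3_le

end Vale.Agent.P243E
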